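import Mathlib

namespace Vale.Agent.Lib.P048

open SimpleGraph Finset

variable {V : Type*} {G : SimpleGraph V}

/-- Closing a path of length at least two by an edge between its ends gives a cycle. -/
theorem cycle_of_path {u v : V} (p : G.Walk u v) (hp : p.IsPath) (hlen : 2 ≤ p.length)
    (h : G.Adj v u) : ∃ (x : V) (c : G.Walk x x), c.IsCycle ∧ c.length = p.length + 1 := by
  refine ⟨v, Walk.cons h p, ?_, by simp⟩
  rw [Walk.cons_isCycle_iff]
  refine ⟨hp, fun hmem => ?_⟩
  have h1 : s(u, v) ∈ p.edges := by
    rwa [Sym2.eq_swap]
  have := hp.length_eq_one_of_mem_edges h1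
  omega

/-- In a clique, any two distinct vertices are joined by a path with any prescribed number
`k` of vertices, `2 ≤ k ≤ |S|`, staying inside the clique. -/
theorem path_in_clique [DecidableEq V] (k : ℕ) :
    ∀ (S : Finset V), G.IsClique (S : Set V) → ∀ u v : V, u ∈ S → v ∈ S → u ≠ v →
      2 ≤ k → k ≤ S.card →
      ∃ p : G.Walk u v, p.IsPath ∧ p.length + 1 = k ∧ ∀ x ∈ p.support, x ∈ S := by
  induction k with
  | zero => intro S _ u v _ _ _ h2; omega
  | succ k ih =>
    intro S hS u v hu hv huv h2 hk
    rcases Nat.lt_or_ge k 2 with hk2 | hk2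
    · -- k + 1 = 2
      have hadj : G.Adj u v := hS hu hv huv
      refine ⟨Walk.cons hadj Walk.nil, ?_, ?_, ?_⟩
      · simp [Walk.cons_isPath_iff, huv]
      · simp; omega
      · intro x hx
        simp at hx
        rcases hx with rfl | rfl <;> assumption
    · -- pick a third vertex
      have hcard : 2 < S.card := by omega
      have : ((S.erase u).erase v).Nonempty := by
        rw [← Finset.card_pos]
        have h1 : (S.erase u).card = S.card - 1 := Finset.card_erase_of_mem hu
        have h2' : v ∈ S.erase u := Finset.mem_erase.mpr ⟨huv.symm, hv⟩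
        have h3 : ((S.erase u).erase v).card = (S.erase u).card - 1 := Finset.card_erase_of_mem h2'
        omega
      obtain ⟨w, hw⟩ := this
      have hwv : w ≠ v := (Finset.mem_erase.mp hw).1
      have hw' : w ∈ S.erase u := (Finset.mem_erase.mp hw).2
      have hwu : w ≠ u := (Finset.mem_erase.mp hw').1
      have hwS : w ∈ S := (Finset.mem_erase.mp hw').2
      have hS' : G.IsClique ((S.erase u : Finset V) : Set V) := by
        intro a ha b hb hab
        exact hS (Finset.mem_of_mem_erase ha) (Finset.mem_of_mem_erase hb) hab
      have hv' : v ∈ S.erase u := Finset.mem_erase.mpr ⟨huv.symm, hv⟩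
      have hcard' : k ≤ (S.erase u).card := by
        rw [Finset.card_erase_of_mem hu]; omega
      obtain ⟨q, hq, hql, hqs⟩ := ih (S.erase u) hS' w v hw' hv' hwv hk2 hcard'
      have hadj : G.Adj u w := hS hu hwS hwu.symm
      refine ⟨Walk.cons hadj q, ?_, ?_, ?_⟩
      · rw [Walk.cons_isPath_iff]
        refine ⟨hq, fun hmem => ?_⟩
        have := hqs u hmem
        simp at this
      · simp; omega
      · intro x hx
        simp only [Walk.support_cons, List.mem_cons] at hx
        rcases hx with rfl | hx
        · exact hu
        · exact Finset.mem_of_mem_erase (hqs x hx)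

end Vale.Agent.Lib.P048
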