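import Mathlib
import Vale.Agent.Lib.P048.Basic

namespace Vale.Agent.Lib.P048

open SimpleGraph Finset

variable {V : Type*} {G : SimpleGraph V}

/-- At most one edge of `G` joins `P i` and `P j` for distinct `i j ∈ I`. -/
def UniqueEdges (G : SimpleGraph V) {ι : Type*} (I : Finset ι) (P : ι → Finset V) : Prop :=
  ∀ i ∈ I, ∀ j ∈ I, i ≠ j → ∀ a ∈ P i, ∀ a' ∈ P i, ∀ b ∈ P j, ∀ b' ∈ P j,
    G.Adj a b → G.Adj a' b' → a = a' ∧ b = b'

theorem card_filter_nonadj [DecidableEq V] [DecidableRel G.Adj] {ι : Type*} {I : Finset ι}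
    {P : ι → Finset V}
    (hU : UniqueEdges G I P) {i j : ι} (hi : i ∈ I) (hj : j ∈ I) (hij : i ≠ j) {u : V}
    (hu : u ∈ P i) : (P j).card ≤ ((P j).filter (fun x => ¬ G.Adj u x)).card + 1 := by
  have h1 := Finset.card_filter_add_card_filter_not (s := P j) (fun x => G.Adj u x)
  have h2 : ((P j).filter (fun x => G.Adj u x)).card ≤ 1 := by
    rw [Finset.card_le_one]
    intro a ha b hb
    rw [Finset.mem_filter] at ha hb
    exact (hU i hi j hj hij u hu u hu a ha.1 b hb.1 ha.2 hb.2).2
  omega

/-- Greedy independent transversal: all parts have at least `|I| - 1` vertices and one part has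
at least `|I|` vertices. -/
theorem exists_transversal_aux [DecidableEq V] [DecidableRel G.Adj] [Nonempty V]
    {ι : Type*} [DecidableEq ι] (r : ℕ) :
    ∀ (I : Finset ι) (P : ι → Finset V), I.card = r → UniqueEdges G I P →
      (∀ i ∈ I, I.card ≤ (P i).card + 1) → (I.Nonempty → ∃ p ∈ I, I.card ≤ (P p).card) →
      ∃ f : ι → V, (∀ i ∈ I, f i ∈ P i) ∧ ∀ i ∈ I, ∀ j ∈ I, i ≠ j → ¬ G.Adj (f i) (f j) := by
  induction r with
  | zero =>
    intro I P hI _ _ _
    have : I = ∅ := Finset.card_eq_zero.mp hI
    subst this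
    exact ⟨fun _ => Classical.arbitrary V, by simp, by simp⟩
  | succ r ih =>
    intro I P hI hU hsz hbig
    have hne : I.Nonempty := by
      rw [← Finset.card_pos]; omega
    obtain ⟨p, hp, hpbig⟩ := hbig hne
    rcases Nat.eq_zero_or_pos r with hr | hr
    · -- single part
      have hpos : 0 < (P p).card := by omega
      obtain ⟨u, hu⟩ := Finset.card_pos.mp hpos
      have hI1 : I.card = 1 := by omega
      obtain ⟨q, hq⟩ := Finset.card_eq_one.mp hI1
      have hpq : p = q := by
        rw [hq] at hp; simpa using hp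
      refine ⟨fun _ => u, ?_, ?_⟩
      · intro i hi
        rw [hq] at hi
        have : i = q := by simpa using hi
        rw [this, ← hpq]; exact hu
      · intro i hi j hj hij
        rw [hq] at hi hj
        have h1 : i = q := by simpa using hi
        have h2 : j = q := by simpa using hj
        exact absurd (h1.trans h2.symm) hij
    · -- at least two parts
      have hex : (I.erase p).Nonempty := by
        rw [← Finset.card_pos, Finset.card_erase_of_mem hp]; omega
      obtain ⟨i0, hi0⟩ := hex
      have hi0p : i0 ≠ p := (Finset.mem_erase.mp hi0).1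
      have hi0I : i0 ∈ I := (Finset.mem_erase.mp hi0).2
      have hpos : 0 < (P i0).card := by
        have := hsz i0 hi0I; omega
      obtain ⟨u, hu⟩ := Finset.card_pos.mp hpos
      let P' : ι → Finset V := fun j => (P j).filter (fun x => ¬ G.Adj u x)
      have hcard' : (I.erase i0).card = r := by
        rw [Finset.card_erase_of_mem hi0I]; omega
      have hU' : UniqueEdges G (I.erase i0) P' := by
        intro i hi j hj hij a ha a' ha' b hb b' hb' hab hab'
        exact hU i (Finset.mem_of_mem_erase hi) j (Finset.mem_of_mem_erase hj) hij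
          a (Finset.mem_of_mem_filter a ha) a' (Finset.mem_of_mem_filter a' ha')
          b (Finset.mem_of_mem_filter b hb) b' (Finset.mem_of_mem_filter b' hb') hab hab'
      have hloss : ∀ j ∈ I.erase i0, (P j).card ≤ (P' j).card + 1 := by
        intro j hj
        exact card_filter_nonadj hU hi0I (Finset.mem_of_mem_erase hj)
          (Finset.mem_erase.mp hj).1.symm hu
      have hsz' : ∀ j ∈ I.erase i0, (I.erase i0).card ≤ (P' j).card + 1 := by
        intro j hj
        have h1 := hloss j hj
        have h2 := hsz j (Finset.mem_of_mem_erase hj)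
        omega
      have hbig' : (I.erase i0).Nonempty → ∃ q ∈ I.erase i0, (I.erase i0).card ≤ (P' q).card := by
        intro _
        have hpm : p ∈ I.erase i0 := Finset.mem_erase.mpr ⟨hi0p.symm, hp⟩
        refine ⟨p, hpm, ?_⟩
        have h1 := hloss p hpm
        omega
      obtain ⟨f', hf'mem, hf'adj⟩ := ih (I.erase i0) P' hcard' hU' hsz' hbig'
      refine ⟨Function.update f' i0 u, ?_, ?_⟩
      · intro i hi
        by_cases h : i = i0
        · subst h; simpa using hu
        · rw [Function.update_of_ne h]
          exact Finset.mem_of_mem_filter _ (hf'mem i (Finset.mem_erase.mpr ⟨h, hi⟩))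
      · intro i hi j hj hij
        by_cases h : i = i0
        · subst h
          have hj' : j ≠ i := fun h' => hij h'.symm
          rw [Function.update_self, Function.update_of_ne hj']
          have := hf'mem j (Finset.mem_erase.mpr ⟨hj', hj⟩)
          exact (Finset.mem_filter.mp this).2
        · by_cases h' : j = i0
          · subst h'
            rw [Function.update_self, Function.update_of_ne h]
            have := hf'mem i (Finset.mem_erase.mpr ⟨h, hi⟩)
            exact fun hadj => (Finset.mem_filter.mp this).2 hadj.symm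
          · rw [Function.update_of_ne h, Function.update_of_ne h']
            exact hf'adj i (Finset.mem_erase.mpr ⟨h, hi⟩) j (Finset.mem_erase.mpr ⟨h', hj⟩) hij

/-- Independent transversal: all parts have at least `max (|I| - 1) 2` vertices. -/
theorem exists_transversal [DecidableEq V] [DecidableRel G.Adj] [Nonempty V]
    {ι : Type*} [DecidableEq ι] (I : Finset ι) (P : ι → Finset V) (hU : UniqueEdges G I P)
    (hsz : ∀ i ∈ I, I.card ≤ (P i).card + 1) (h2 : ∀ i ∈ I, 2 ≤ (P i).card) :
    ∃ f : ι → V, (∀ i ∈ I, f i ∈ P i) ∧ ∀ i ∈ I, ∀ j ∈ I, i ≠ j → ¬ G.Adj (f i) (f j) := by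
  rcases Finset.eq_empty_or_nonempty I with hI | hI
  · subst hI
    exact ⟨fun _ => Classical.arbitrary V, by simp, by simp⟩
  obtain ⟨i0, hi0⟩ := hI
  rcases Finset.eq_empty_or_nonempty (I.erase i0) with hI' | hI'
  · -- only one part
    have hpos : 0 < (P i0).card := by have := h2 i0 hi0; omega
    obtain ⟨u, hu⟩ := Finset.card_pos.mp hpos
    have hall : ∀ i ∈ I, i = i0 := by
      intro i hi
      by_contra hne
      have : i ∈ I.erase i0 := Finset.mem_erase.mpr ⟨hne, hi⟩
      rw [hI'] at this
      simp at this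
    refine ⟨fun _ => u, ?_, ?_⟩
    · intro i hi; rw [hall i hi]; exact hu
    · intro i hi j hj hij
      exact absurd ((hall i hi).trans (hall j hj).symm) hij
  obtain ⟨j0, hj0⟩ := hI'
  have hj0i : j0 ≠ i0 := (Finset.mem_erase.mp hj0).1
  have hj0I : j0 ∈ I := (Finset.mem_erase.mp hj0).2
  -- choose `u ∈ P i0` with no neighbour in `P j0`
  have hfew : ((P i0).filter (fun a => ∃ b ∈ P j0, G.Adj a b)).card ≤ 1 := by
    rw [Finset.card_le_one]
    intro a ha a' ha'
    rw [Finset.mem_filter] at ha ha'
    obtain ⟨b, hb, hab⟩ := ha.2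
    obtain ⟨b', hb', hab'⟩ := ha'.2
    exact (hU i0 hi0 j0 hj0I hj0i.symm a ha.1 a' ha'.1 b hb b' hb' hab hab').1
  have hexu : ∃ u ∈ P i0, ∀ b ∈ P j0, ¬ G.Adj u b := by
    have hlt : ((P i0).filter (fun a => ∃ b ∈ P j0, G.Adj a b)).card < (P i0).card := by
      have := h2 i0 hi0; omega
    obtain ⟨u, hu, hun⟩ := Finset.exists_mem_notMem_of_card_lt_card hlt
    refine ⟨u, hu, fun b hb hadj => hun ?_⟩
    rw [Finset.mem_filter]
    exact ⟨hu, b, hb, hadj⟩
  obtain ⟨u, hu, hun⟩ := hexu
  let P' : ι → Finset V := fun j => (P j).filter (fun x => ¬ G.Adj u x)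
  have hU' : UniqueEdges G (I.erase i0) P' := by
    intro i hi j hj hij a ha a' ha' b hb b' hb' hab hab'
    exact hU i (Finset.mem_of_mem_erase hi) j (Finset.mem_of_mem_erase hj) hij
      a (Finset.mem_of_mem_filter a ha) a' (Finset.mem_of_mem_filter a' ha')
      b (Finset.mem_of_mem_filter b hb) b' (Finset.mem_of_mem_filter b' hb') hab hab'
  have hloss : ∀ j ∈ I.erase i0, (P j).card ≤ (P' j).card + 1 := by
    intro j hj
    exact card_filter_nonadj hU hi0 (Finset.mem_of_mem_erase hj)
      (Finset.mem_erase.mp hj).1.symm hu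
  have hcardI : (I.erase i0).card + 1 = I.card := Finset.card_erase_add_one hi0
  have hsz' : ∀ j ∈ I.erase i0, (I.erase i0).card ≤ (P' j).card + 1 := by
    intro j hj
    have h1 := hloss j hj
    have h2 := hsz j (Finset.mem_of_mem_erase hj)
    omega
  have hbig' : (I.erase i0).Nonempty → ∃ q ∈ I.erase i0, (I.erase i0).card ≤ (P' q).card := by
    intro _
    refine ⟨j0, hj0, ?_⟩
    have hPj : P' j0 = P j0 := by
      apply Finset.filter_true_of_mem
      intro b hb
      exact hun b hb
    rw [hPj]
    have := hsz j0 hj0I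
    omega
  obtain ⟨f', hf'mem, hf'adj⟩ :=
    exists_transversal_aux (G := G) (I.erase i0).card (I.erase i0) P' rfl hU' hsz' hbig'
  refine ⟨Function.update f' i0 u, ?_, ?_⟩
  · intro i hi
    by_cases h : i = i0
    · subst h; simpa using hu
    · rw [Function.update_of_ne h]
      exact Finset.mem_of_mem_filter _ (hf'mem i (Finset.mem_erase.mpr ⟨h, hi⟩))
  · intro i hi j hj hij
    by_cases h : i = i0
    · subst h
      have hj' : j ≠ i := fun h' => hij h'.symm
      rw [Function.update_self, Function.update_of_ne hj']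
      have := hf'mem j (Finset.mem_erase.mpr ⟨hj', hj⟩)
      exact (Finset.mem_filter.mp this).2
    · by_cases h' : j = i0
      · subst h'
        rw [Function.update_self, Function.update_of_ne h]
        have := hf'mem i (Finset.mem_erase.mpr ⟨h, hi⟩)
        exact fun hadj => (Finset.mem_filter.mp this).2 hadj.symm
      · rw [Function.update_of_ne h, Function.update_of_ne h']
        exact hf'adj i (Finset.mem_erase.mpr ⟨h, hi⟩) j (Finset.mem_erase.mpr ⟨h', hj⟩) hij

end Vale.Agent.Lib.P048
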