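import Mathlib
import Vale.Agent.Lib.P048.Basic
import Vale.Agent.Lib.P048.Transversal

namespace Vale.Agent.Lib.P048

open SimpleGraph Finset

variable {V : Type*} {G : SimpleGraph V}

/-- A vertex outside a clique `S` adjacent to two distinct vertices of `S` closes a cycle of
length `|S| + 1`. -/
theorem cycle_of_two_nbrs [DecidableEq V] (S : Finset V) (hS : G.IsClique (S : Set V))
    (x y y' : V) (hx : x ∉ S) (hy : y ∈ S) (hy' : y' ∈ S) (hne : y ≠ y')
    (hxy : G.Adj x y) (hxy' : G.Adj x y') :
    ∃ (v : V) (c : G.Walk v v), c.IsCycle ∧ c.length = S.card + 1 := by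
  have hcard : 2 ≤ S.card := by
    have : ({y, y'} : Finset V) ⊆ S := by
      intro z hz
      simp only [Finset.mem_insert, Finset.mem_singleton] at hz
      rcases hz with rfl | rfl <;> assumption
    have h2 := Finset.card_le_card this
    rw [Finset.card_pair hne] at h2
    exact h2
  obtain ⟨q, hq, hql, hqs⟩ := path_in_clique (G := G) S.card S hS y y' hy hy' hne hcard le_rfl
  have hp : (Walk.cons hxy q).IsPath := by
    rw [Walk.cons_isPath_iff]
    exact ⟨hq, fun hmem => hx (hqs x hmem)⟩
  obtain ⟨v, c, hc, hcl⟩ := cycle_of_path (Walk.cons hxy q) hp (by simp; omega) hxy'.symm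
  refine ⟨v, c, hc, ?_⟩
  rw [hcl]; simp; omega

/-- Two disjoint edges between two disjoint cliques `S`, `T` close cycles of every length
`k + 2` with `2 ≤ k ≤ |T|`. -/
theorem cycle_of_two_edges [DecidableEq V] (S T : Finset V) (hS : G.IsClique (S : Set V))
    (hT : G.IsClique (T : Set V)) (hST : Disjoint S T)
    (a a' b b' : V) (ha : a ∈ S) (ha' : a' ∈ S) (hb : b ∈ T) (hb' : b' ∈ T)
    (haa : a ≠ a') (hbb : b ≠ b') (hab : G.Adj a b) (hab' : G.Adj a' b')
    (k : ℕ) (hk2 : 2 ≤ k) (hk : k ≤ T.card) :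
    ∃ (v : V) (c : G.Walk v v), c.IsCycle ∧ c.length = k + 2 := by
  obtain ⟨q, hq, hql, hqs⟩ := path_in_clique (G := G) k T hT b' b hb' hb hbb.symm hk2 hk
  have haT : a ∉ T := fun h => (Finset.disjoint_left.mp hST ha) h
  have ha'T : a' ∉ T := fun h => (Finset.disjoint_left.mp hST ha') h
  have hp1 : (Walk.cons hab' q).IsPath := by
    rw [Walk.cons_isPath_iff]
    exact ⟨hq, fun hmem => ha'T (hqs a' hmem)⟩
  have haa' : G.Adj a a' := hS ha ha' haa
  have hp2 : (Walk.cons haa' (Walk.cons hab' q)).IsPath := by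
    rw [Walk.cons_isPath_iff]
    refine ⟨hp1, fun hmem => ?_⟩
    simp only [Walk.support_cons, List.mem_cons] at hmem
    rcases hmem with h | h
    · exact haa h
    · exact haT (hqs a h)
  obtain ⟨v, c, hc, hcl⟩ := cycle_of_path _ hp2 (by simp) hab.symm
  refine ⟨v, c, hc, ?_⟩
  rw [hcl]; simp; omega

/-- The extremal configuration cannot be extended: a graph with more than `(m-1)(n-1)` vertices,
no independent set of size `n`, containing `n-1` pairwise disjoint cliques of order `m-1`,
contains a cycle of length exactly `m` (for `m ≥ n`, `m ≥ 4`). -/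
theorem extremal_not_extendable {V : Type*} [Fintype V] (G : SimpleGraph V) (m n : ℕ)
    (hmn : n ≤ m) (hm : 4 ≤ m)
    (hcard : (m - 1) * (n - 1) + 1 ≤ Fintype.card V)
    (hα : ∀ s : Finset V, G.IsIndepSet (s : Set V) → s.card < n)
    (Q : Fin (n - 1) → Finset V) (hQ : ∀ i, G.IsNClique (m - 1) (Q i))
    (hdisj : ∀ i j, i ≠ j → Disjoint (Q i) (Q j)) :
    ∃ (v : V) (p : G.Walk v v), p.IsCycle ∧ p.length = m := by
  classical
  by_contra hno
  -- a vertex outside all the cliques
  have hQc : ∀ i, (Q i).card = m - 1 := fun i => (hQ i).card_eq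
  have hQk : ∀ i, G.IsClique (Q i : Set V) := fun i => (hQ i).isClique
  have hU : ((Finset.univ : Finset (Fin (n - 1))).biUnion Q).card < (Finset.univ : Finset V).card := by
    calc ((Finset.univ : Finset (Fin (n - 1))).biUnion Q).card
        ≤ ∑ i : Fin (n - 1), (Q i).card := Finset.card_biUnion_le
      _ = (n - 1) * (m - 1) := by simp [hQc]
      _ < (Finset.univ : Finset V).card := by
        rw [Finset.card_univ]; rw [Nat.mul_comm]; omega
  obtain ⟨w, -, hw⟩ := Finset.exists_mem_notMem_of_card_lt_card hU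
  have hwQ : ∀ i, w ∉ Q i := by
    intro i hi
    exact hw (Finset.mem_biUnion.mpr ⟨i, Finset.mem_univ i, hi⟩)
  have : Nonempty V := ⟨w⟩
  -- `w` has at most one neighbour in each clique
  have hw1 : ∀ i, ∀ y ∈ Q i, ∀ y' ∈ Q i, G.Adj w y → G.Adj w y' → y = y' := by
    intro i y hy y' hy' h1 h2
    by_contra hne
    obtain ⟨v, c, hc, hcl⟩ := cycle_of_two_nbrs (Q i) (hQk i) w y y' (hwQ i) hy hy' hne h1 h2
    exact hno ⟨v, c, hc, by rw [hcl, hQc]; omega⟩
  -- at most one edge between two cliques
  have hedge : ∀ i j, i ≠ j → ∀ a ∈ Q i, ∀ a' ∈ Q i, ∀ b ∈ Q j, ∀ b' ∈ Q j,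
      G.Adj a b → G.Adj a' b' → a = a' ∧ b = b' := by
    intro i j hij a ha a' ha' b hb b' hb' hab hab'
    have haj : a ∉ Q j := fun h => (Finset.disjoint_left.mp (hdisj i j hij) ha) h
    have hbi : b ∉ Q i := fun h => (Finset.disjoint_left.mp (hdisj i j hij) h) hb
    have hb'i : b' ∉ Q i := fun h => (Finset.disjoint_left.mp (hdisj i j hij) h) hb'
    by_cases haa : a = a'
    · refine ⟨haa, ?_⟩
      subst haa
      by_contra hne
      obtain ⟨v, c, hc, hcl⟩ := cycle_of_two_nbrs (Q j) (hQk j) a b b' haj hb hb' hne hab hab'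
      exact hno ⟨v, c, hc, by rw [hcl, hQc]; omega⟩
    · exfalso
      by_cases hbb : b = b'
      · subst hbb
        obtain ⟨v, c, hc, hcl⟩ :=
          cycle_of_two_nbrs (Q i) (hQk i) b a a' hbi ha ha' haa hab.symm hab'.symm
        exact hno ⟨v, c, hc, by rw [hcl, hQc]; omega⟩
      · obtain ⟨v, c, hc, hcl⟩ :=
          cycle_of_two_edges (Q i) (Q j) (hQk i) (hQk j) (hdisj i j hij) a a' b b' ha ha' hb hb'
            haa hbb hab hab' (m - 2) (by omega) (by rw [hQc]; omega)
        exact hno ⟨v, c, hc, by rw [hcl]; omega⟩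
  -- the parts: non-neighbours of `w` in each clique
  let P : Fin (n - 1) → Finset V := fun i => (Q i).filter (fun x => ¬ G.Adj w x)
  have hPsub : ∀ i, P i ⊆ Q i := fun i => Finset.filter_subset _ _
  have hPcard : ∀ i, m - 1 ≤ (P i).card + 1 := by
    intro i
    have h1 := Finset.card_filter_add_card_filter_not (s := Q i) (fun x => G.Adj w x)
    have h2 : ((Q i).filter (fun x => G.Adj w x)).card ≤ 1 := by
      rw [Finset.card_le_one]
      intro a ha b hb
      rw [Finset.mem_filter] at ha hb
      exact hw1 i a ha.1 b hb.1 ha.2 hb.2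
    have h3 := hQc i
    show m - 1 ≤ ((Q i).filter (fun x => ¬ G.Adj w x)).card + 1
    omega
  have hUE : UniqueEdges G (Finset.univ : Finset (Fin (n - 1))) P := by
    intro i _ j _ hij a ha a' ha' b hb b' hb' hab hab'
    exact hedge i j hij a (hPsub i ha) a' (hPsub i ha') b (hPsub j hb) b' (hPsub j hb') hab hab'
  obtain ⟨f, hfmem, hfadj⟩ := exists_transversal (G := G) Finset.univ P hUE
    (by intro i _; rw [Finset.card_univ, Fintype.card_fin]; have := hPcard i; omega)
    (by intro i _; have := hPcard i; omega)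
  -- the independent set
  have hfinj : Function.Injective f := by
    intro i j hij
    by_contra hne
    have h1 := hPsub i (hfmem i (Finset.mem_univ i))
    have h2 := hPsub j (hfmem j (Finset.mem_univ j))
    rw [hij] at h1
    exact (Finset.disjoint_left.mp (hdisj i j hne) h1) h2
  have hwf : w ∉ Finset.univ.image f := by
    intro h
    obtain ⟨i, -, hi⟩ := Finset.mem_image.mp h
    exact hwQ i (hi ▸ hPsub i (hfmem i (Finset.mem_univ i)))
  have hind : G.IsIndepSet ((insert w (Finset.univ.image f) : Finset V) : Set V) := by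
    intro x hx y hy hxy hadj
    simp only [Finset.coe_insert, Finset.coe_image, Finset.coe_univ, Set.image_univ,
      Set.mem_insert_iff, Set.mem_range] at hx hy
    rcases hx with rfl | ⟨i, rfl⟩
    · rcases hy with rfl | ⟨j, rfl⟩
      · exact hxy rfl
      · exact (Finset.mem_filter.mp (hfmem j (Finset.mem_univ j))).2 hadj
    · rcases hy with rfl | ⟨j, rfl⟩
      · exact (Finset.mem_filter.mp (hfmem i (Finset.mem_univ i))).2 hadj.symm
      · have hij : i ≠ j := fun h => hxy (by rw [h])
        exact hfadj i (Finset.mem_univ i) j (Finset.mem_univ j) hij hadj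
  have hcardS : (insert w (Finset.univ.image f) : Finset V).card = (n - 1) + 1 := by
    rw [Finset.card_insert_of_notMem hwf, Finset.card_image_of_injective _ hfinj,
      Finset.card_univ, Fintype.card_fin]
  have hlt := hα _ hind
  have h0 := hα ∅ (by simp)
  simp at h0
  omega

end Vale.Agent.Lib.P048
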